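import Vale.Agent.P122.H610.Cnts

/-!
# P122 / H798 : density of refinements (RGdns) (helper798)

`W'`, `W` : sequences of valid structures over the same amplitudes, `W'` a refinement of `W` at every index.

* `card_fl_big` : if `#X'` and the numbers of children do not drop, the number of flags does not drop.
* `dns` : then the law of the flags of `W'` is dense in the law of the flags of `W`, `π` = inclusion.
* `flg_eq` : `W'.flg` is the restriction of `W.flg`.
-/

set_option autoImplicit false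

namespace Vale.Agent.P122.H798

open Filter Topology Finset Vale.Agent.P127 Vale.Agent.P127.Stk Vale.Agent.P127.U Vale.Agent.P127.U.Sys
  Vale.Agent.P122.C2 Vale.Agent.P122.E Vale.Agent.P122.H610

variable {K : ℕ} {Z : CS K} {W' W : VS Z}

theorem X_pos (W : VS Z) (i : ℕ) : (0 : ℝ) < (W.V i).X.card := by exact_mod_cast (W.ne i).card_pos

theorem fl_pos (W : VS Z) (i : ℕ) : (0 : ℝ) < (W.fl i).card := by exact_mod_cast (W.fl_ne i).card_pos

/-- the number of flags of the refinement does not drop -/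
theorem card_fl_big (hX : Z.Big fun i => ((W'.V i).X.card : ℝ) / (W.V i).X.card)
    (hJ : ∀ c, c < K → ∀ ε : ℝ, 0 < ε → ∀ᶠ i in (uf : Filter ℕ), (W.J i c : ℝ) ≤ W'.J i c + ε * Z.L i) :
    Z.Big fun i => ((W'.fl i).card : ℝ) / (W.fl i).card := by
  have hK : (0 : ℝ) < K := by exact_mod_cast lt_of_lt_of_le Nat.zero_lt_one Z.K1
  refine CS.Big.of_log (Eventually.of_forall fun i => div_pos (fl_pos W' i) (fl_pos W i)) fun ε hε => ?_
  have h1 : ∀ᶠ i in (uf : Filter ℕ), ∀ c ∈ range K, (W.J i c : ℝ) ≤ W'.J i c + ε / (4 * K) * Z.L i :=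
    (Finset.eventually_all (range K)).2 fun c hc => hJ c (Finset.mem_range.1 hc) _ (by positivity)
  filter_upwards [h1, hX.neg_log_le (show 0 < ε / 4 by positivity), CS.const_le (Z := Z) (K : ℝ) (show 0 < ε / 4 by positivity),
    Z.L_pos] with i h2 h3 h4 h5
  have k1 := (card_Fg (W.ok i) (i := K) le_rfl).2
  have k2 := (card_Fg (W'.ok i) (i := K) le_rfl).1
  have e1 : ∑ j ∈ range K, (W.J i j + 1) = ∑ j ∈ range K, W.J i j + K := by
    rw [Finset.sum_add_distrib]
    simp
  rw [e1] at k1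
  have hX0 := X_pos W i
  have hX1 := X_pos W' i
  have g1 : Real.logb 2 ((W.fl i).card : ℝ) ≤ Real.logb 2 ((W.V i).X.card : ℝ) + (((∑ j ∈ range K, W.J i j : ℕ) : ℝ) + K) := by
    have : ((W.fl i).card : ℝ) ≤ (W.V i).X.card * 2 ^ (((∑ j ∈ range K, W.J i j : ℕ) : ℝ) + K) := by
      have h : ((W.fl i).card : ℝ) ≤ (W.V i).X.card * 2 ^ (∑ j ∈ range K, W.J i j + K) := by exact_mod_cast k1
      refine h.trans (le_of_eq ?_)
      rw [← Real.rpow_natCast]
      push_cast
      rfl
    have h := Real.logb_le_logb_of_le (by norm_num : (1 : ℝ) < 2) (fl_pos W i) this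
    rwa [Real.logb_mul hX0.ne' (Real.rpow_pos_of_pos (by norm_num) _).ne', Real.logb_rpow (by norm_num) (by norm_num)] at h
  have g2 : Real.logb 2 ((W'.V i).X.card : ℝ) + ((∑ j ∈ range K, W'.J i j : ℕ) : ℝ) ≤ Real.logb 2 ((W'.fl i).card : ℝ) := by
    have : ((W'.V i).X.card : ℝ) * 2 ^ (((∑ j ∈ range K, W'.J i j : ℕ) : ℝ)) ≤ (W'.fl i).card := by
      rw [Real.rpow_natCast]
      exact_mod_cast k2
    have h := Real.logb_le_logb_of_le (by norm_num : (1 : ℝ) < 2) (by positivity) this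
    rwa [Real.logb_mul hX1.ne' (Real.rpow_pos_of_pos (by norm_num) _).ne', Real.logb_rpow (by norm_num) (by norm_num)] at h
  have g3 : ((∑ j ∈ range K, W.J i j : ℕ) : ℝ) ≤ ((∑ j ∈ range K, W'.J i j : ℕ) : ℝ) + ε / 4 * Z.L i := by
    push_cast
    have h := Finset.sum_le_sum h2
    rw [Finset.sum_add_distrib, Finset.sum_const, Finset.card_range, nsmul_eq_mul] at h
    have e : (K : ℝ) * (ε / (4 * K) * Z.L i) = ε / 4 * Z.L i := by field_simp
    rw [e] at h
    exact h
  rw [Real.logb_div hX1.ne' hX0.ne'] at h3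
  rw [Real.logb_div (fl_pos W' i).ne' (fl_pos W i).ne']
  have h6 : 0 < ε * Z.L i := mul_pos hε h5
  linarith

/-- the flags of the refinement are flags -/
theorem fl_sub (hle : ∀ i, (W'.V i).Le (W.V i)) (i : ℕ) : W'.fl i ⊆ W.fl i := Fg_le (hle i) K

/-- **the law of the flags of the refinement is dense** -/
noncomputable def dns (hle : ∀ i, (W'.V i).Le (W.V i)) (h : Z.Big fun i => ((W'.fl i).card : ℝ) / (W.fl i).card) :
    Dns W'.sys W.sys where
  π := fun i ω => ⟨ω.1, fl_sub hle i ω.2⟩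
  L_eq := rfl
  dom := by
    intro ε hε
    filter_upwards [h ε hε] with i hi ω
    have h1 : (W'.sys.P i).pr (fun ω' => (⟨ω'.1, fl_sub hle i ω'.2⟩ : W.sys.Ω i)) ω ≤ 1 / ((W'.fl i).card : ℝ) := by
      classical
      have e := uL_pr (W'.fl_ne i) (fun ω' : {f // f ∈ W'.fl i} => (⟨ω'.1, fl_sub hle i ω'.2⟩ : W.sys.Ω i)) ω
      refine (le_of_eq e).trans ?_
      refine div_le_div_of_nonneg_right ?_ (Nat.cast_nonneg _)
      have : (univ.filter fun f : {f // f ∈ W'.fl i} => (⟨f.1, fl_sub hle i f.2⟩ : W.sys.Ω i) = ω).card ≤ 1 := by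
        refine Finset.card_le_one.2 fun x hx y hy => ?_
        rw [Finset.mem_filter] at hx hy
        have e2 : (⟨x.1, fl_sub hle i x.2⟩ : W.sys.Ω i).1 = (⟨y.1, fl_sub hle i y.2⟩ : W.sys.Ω i).1 :=
          congrArg Subtype.val (hx.2.trans hy.2.symm)
        exact Subtype.ext e2
      exact_mod_cast this
    refine h1.trans ?_
    rw [W.sys_w i ω]
    have h2 := fl_pos W i
    have h3 := fl_pos W' i
    have h4 : (2 : ℝ) ^ (-(ε * W.sys.L i)) ≤ (2 : ℝ) ^ (-(ε * Z.n i)) := by
      refine Real.rpow_le_rpow_of_exponent_le (by norm_num) ?_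
      rw [W.sys_L]
      have := Z.n_le_L i
      have e : Z.L i = ((K * Z.n i : ℕ) : ℝ) := rfl
      rw [e] at this
      have h5 := mul_le_mul_of_nonneg_left this hε.le
      push_cast at h5 ⊢
      linarith
    have h5 := h4.trans hi
    rw [Real.rpow_neg (by norm_num), le_div_iff₀ h2] at h5
    have h6 : (0 : ℝ) < (2 : ℝ) ^ (ε * W.sys.L i) := Real.rpow_pos_of_pos (by norm_num) _
    rw [mul_one_div, div_le_div_iff₀ h3 h2, one_mul]
    have h7 := mul_le_mul_of_nonneg_left h5 h6.le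
    rw [← mul_assoc, mul_inv_cancel₀ h6.ne', one_mul] at h7
    exact h7

theorem dns_π (hle : ∀ i, (W'.V i).Le (W.V i)) (h : Z.Big fun i => ((W'.fl i).card : ℝ) / (W.fl i).card) (i : ℕ)
    (ω : W'.sys.Ω i) : ((dns hle h).π i ω).1 = ω.1 := rfl

theorem dns_pos (hle : ∀ i, (W'.V i).Le (W.V i)) (h : Z.Big fun i => ((W'.fl i).card : ℝ) / (W.fl i).card) (i : ℕ)
    (ω : W'.sys.Ω i) (_ : 0 < (W'.sys.P i).w ω) : 0 < (W.sys.P i).w ((dns hle h).π i ω) := W.sys_pos i _

/-- the flags of the refinement = the restriction of the flags -/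
theorem flg_eq (hle : ∀ i, (W'.V i).Le (W.V i)) (h : Z.Big fun i => ((W'.fl i).card : ℝ) / (W.fl i).card) :
    W'.flg = W.flg.res (dns hle h) (dns_pos hle h) := rfl

end Vale.Agent.P122.H798
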